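import Vale.Agent.P352R.Pub3
import Vale.Agent.P352R.Gl2

/-!
# P352R: transforms of the operators of a covariant net (helper89)
-/

set_option autoImplicit false
set_option linter.all false

namespace Vale.Agent.P352R.L89

open P352 GF H246 H15 BW P352X P352W
open UniformSpace (Completion)

variable {D : Type*} [NormedAddCommGroup D] [InnerProductSpace ℂ D] {Q : Theory D}
  {A : (V → V) → D → D} {Gd : D → D} {s : ℝ} {L : Ix → V} {y : V}

/-- the similitudes are onto, for a representation -/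
theorem onto_rep (h : P.Rep Q A) (hs : 0 < s) (hL : IsLor L) (y : V) (v : D) :
    ∃ w, Q.U s L y w = v := ⟨_, Gl2.U_inv (Br.rep.1 h) hs hL y v⟩

/-- the similitudes are onto, for a representation up to the grading -/
theorem onto_gr (g : P.Gr Q Gd) (hs : 0 < s) (hL : IsLor L) (y : V) (v : D) :
    ∃ w, Q.U s L y w = v := by
  have e := Gl2.sim_inv hs hL y 0
  rw [show sim s⁻¹ (linv L) (Fk.U.mm s⁻¹ L (-y)) 0 = Fk.U.mm s⁻¹ L (-y) from
    funext fun n => by simp [sim]] at e
  have u : ∀ v, Q.U (s * s⁻¹) (fun m => sim 1 L 0 (linv L m))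
      (sim s L y (Fk.U.mm s⁻¹ L (-y))) v = v := fun v => by
    rw [H755.linv_id hL, mul_inv_cancel₀ hs.ne', e]; exact H755.Uone v
  rcases g.mul s L y s⁻¹ (linv L) (Fk.U.mm s⁻¹ L (-y)) hs (inv_pos.2 hs) hL (isLor_linv hL) with
    k | ⟨-, -, k⟩
  · exact ⟨_, (k v).trans (u v)⟩
  · exact ⟨_, (k (Gd v)).trans (by rw [u, g.inv])⟩

/-- the transform of an operator is unique -/
theorem tr_uniq (hs : 0 < s) (hL : IsLor L) (o : ∀ v, ∃ w, Q.U s L y w = v)
    {Y Y' : Completion D →L[ℂ] Completion D} {X : Completion D → Completion D}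
    (a : ∀ z, Y (P.Ue Q s L y z) = P.Ue Q s L y (X z))
    (b : ∀ z, Y' (P.Ue Q s L y z) = P.Ue Q s L y (X z)) : Y = Y' := by
  ext z
  induction z using Completion.induction_on with
  | hp => exact isClosed_eq Y.continuous Y'.continuous
  | ih v =>
    obtain ⟨w, rfl⟩ := o v
    have e : ((Q.U s L y w : D) : Completion D) = P.Ue Q s L y w := (ue_coe hs hL y w).symm
    rw [e, a, b]

variable {N : Set V → VonNeumannAlgebra (Completion D)} {O W : Set V}
  {X Y : Completion D →L[ℂ] Completion D}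

/-- the transform of an operator of `N O` is in the algebra of every region containing `g O` -/
theorem tr_mem (h : P.LNm Q A N) (hs : 0 < s) (hL : IsLor L) (hX : X ∈ N O)
    (hW : sim s L y '' O ⊆ W) (a : ∀ z, Y (P.Ue Q s L y z) = P.Ue Q s L y (X z)) : Y ∈ N W := by
  obtain ⟨Y', b, c⟩ := h.cov s L y O X hX hs hL
  rw [tr_uniq hs hL (onto_rep h.toRep hs hL y) a c]
  exact h.mono _ _ hW _ b

/-- the same for graded nets -/
theorem tr_memG {Γ : Completion D →L[ℂ] Completion D} (h : G.LNg Q Gd A Γ N) (hs : 0 < s)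
    (hL : IsLor L) (hX : X ∈ N O) (hW : sim s L y '' O ⊆ W)
    (a : ∀ z, Y (P.Ue Q s L y z) = P.Ue Q s L y (X z)) : Y ∈ N W := by
  obtain ⟨Y', b, c⟩ := h.cov s L y O X hX hs hL
  rw [tr_uniq hs hL (onto_gr h.toGr hs hL y) a c]
  exact h.mono _ _ hW _ b

/-- operators of opposite wedges commute -/
theorem comm (h : P.LNm Q A N) {a b : V} (ha : P.IsNull a) (hb : P.IsNull b) (m : mdot a b = 1)
    (hX : X ∈ N (P.Wdg b a 0)) (hY : Y ∈ N (P.Wdg a b 0)) : X * Y = Y * X :=
  ((VonNeumannAlgebra.mem_commutant_iff.1 (h.loc a b X ha hb m hX)) Y hY).symm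

end Vale.Agent.P352R.L89
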