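import Vale.Agent.P352R.Pub3
import Vale.Agent.P352.BW.U

/-!
# P352R: transforms of the operators of a covariant graded net (helper89)
-/

set_option autoImplicit false
set_option linter.all false

namespace Vale.Agent.P352R.L89G

open P352 GF H246 H496 H755 H15 BW
open UniformSpace (Completion)

variable {D : Type*} [NormedAddCommGroup D] [InnerProductSpace ℂ D] {Q : Theory D}
  {A : (V → V) → D → D} {Gd : D → D} {s : ℝ} {L : Ix → V} {y : V}

/-- the similitudes are onto, for a representation up to the grading -/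
theorem onto_gr (g : P.Gr Q Gd) (hs : 0 < s) (hL : IsLor L) (y : V) (v : D) :
    ∃ w, Q.U s L y w = v := by
  have e := ue_sim hs hL y 0
  rw [show sim s⁻¹ (linv L) (-(sim s⁻¹ (linv L) 0 y)) 0 = -(sim s⁻¹ (linv L) 0 y) from
    funext fun n => by simp [sim]] at e
  have u : ∀ v, Q.U (s * s⁻¹) (fun m => sim 1 L 0 (linv L m))
      (sim s L y (-(sim s⁻¹ (linv L) 0 y))) v = v := fun v => by
    rw [linv_id hL, mul_inv_cancel₀ hs.ne', e]; exact Uone v
  rcases g.mul s L y s⁻¹ (linv L) (-(sim s⁻¹ (linv L) 0 y)) hs (inv_pos.2 hs) hL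
    (isLor_linv hL) with k | ⟨-, -, k⟩
  · exact ⟨_, (k v).trans (u v)⟩
  · exact ⟨_, (k (Gd v)).trans (by rw [u, g.inv])⟩

/-- the transform of an operator is unique -/
theorem tr_uniq (hs : 0 < s) (hL : IsLor L) (o : ∀ v, ∃ w, Q.U s L y w = v)
    {Y Y' : Completion D →L[ℂ] Completion D} {X : Completion D → Completion D}
    (a : ∀ z, Y (P.Ue Q s L y z) = P.Ue Q s L y (X z))
    (b : ∀ z, Y' (P.Ue Q s L y z) = P.Ue Q s L y (X z)) : Y = Y' := by
  ext z
  induction z using Completion.induction_on with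
  | hp => exact isClosed_eq Y.continuous Y'.continuous
  | ih v =>
    obtain ⟨w, rfl⟩ := o v
    have e : ((Q.U s L y w : D) : Completion D) = P.Ue Q s L y w := (ue_coe hs hL y w).symm
    rw [e, a, b]

/-- the transform of an operator of `N O` is in the algebra of every region containing `g O` -/
theorem tr_mem {N : Set V → VonNeumannAlgebra (Completion D)} {O W : Set V}
    {X Y Γ : Completion D →L[ℂ] Completion D} (h : G.LNg Q Gd A Γ N) (hs : 0 < s)
    (hL : IsLor L) (hX : X ∈ N O) (hW : sim s L y '' O ⊆ W)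
    (a : ∀ z, Y (P.Ue Q s L y z) = P.Ue Q s L y (X z)) : Y ∈ N W := by
  obtain ⟨Y', b, c⟩ := h.cov s L y O X hX hs hL
  rw [tr_uniq hs hL (onto_gr h.toGr hs hL y) a c]
  exact h.mono _ _ hW _ b

end Vale.Agent.P352R.L89G
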